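import Mathlib
import Vale.Agent.P140.Defs
import Vale.Agent.P140.Uniq

/-!
Uniqueness in the class of renormalized entropy solutions of the periodic hard sphere equation:
locally in time for every datum below an exponentially integrable velocity envelope, globally for every Maxwellian datum, and
against every solution with an exponential velocity moment and bounded local density and flux.
-/

noncomputable section

open MeasureTheory Set
open Vale.Agent.P140
open scoped ENNReal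

namespace Vale.Agent.Results.P140.WeakStrong

theorem result :
    (∀ (F₀ : X × V → ℝ), Measurable F₀ → (∀ z, 0 ≤ F₀ z) → ∀ g : V → ℝ, Measurable g → ∀ a : ℝ,
      0 < a → (∀ᵐ z, F₀ z ≤ g z.2) → (∫⁻ v, ENNReal.ofReal (Real.exp (a * ‖v‖) * g v) < ⊤) →
      ∃ T : ℝ, 0 < T ∧ ∀ F G : ℝ → X × V → ℝ, IsSolution F₀ F → IsSolution F₀ G →
        ∀ t ∈ Icc 0 T, F t =ᵐ[volume] G t) ∧
    (∀ (ρ b : ℝ) (u : V), 0 ≤ ρ → 0 < b → ∀ F : ℝ → X × V → ℝ,
      IsSolution (fun z => ρ * Real.exp (-b * ‖z.2 - u‖ ^ 2)) F →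
      ∀ t : ℝ, 0 ≤ t → F t =ᵐ[volume] fun z => ρ * Real.exp (-b * ‖z.2 - u‖ ^ 2)) ∧
    (∀ (F₀ : X × V → ℝ) (F G : ℝ → X × V → ℝ), IsSolution F₀ F → IsSolution F₀ G →
      ∀ T a A : ℝ, 0 < a →
      (∀ᵐ p : ℝ × X ∂((volume : Measure ℝ).restrict (Icc 0 T)).prod volume,
        ∫⁻ v : V, ENNReal.ofReal (F p.1 (p.2, v) * (1 + ‖v‖)) ≤ ENNReal.ofReal A) →
      (∀ᵐ t ∂(volume : Measure ℝ).restrict (Icc 0 T),
        ∫⁻ z, ENNReal.ofReal (Real.exp (a * ‖z.2‖) * F t z) ≤ ENNReal.ofReal A) →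
      ∀ t ∈ Icc 0 T, G t =ᵐ[volume] F t) :=
  ⟨local_unique_exp, fun ρ b u hρ hb F hF t ht => maxwellian_unique ρ b hρ hb u F hF t ht,
    fun F₀ F G hF hG T a A ha h1 h2 => weak_strong F₀ F G hF hG T a A ha h1 h2⟩

end Vale.Agent.Results.P140.WeakStrong
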